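import Vale.Agent.P011.D4Z.H408.LimI0
import Vale.Agent.P011.D4Z.H68.MovesI

/-!
Block D4Z, groups of noncyclic cubic extensions: the limits of the moves `z(1, x; 1)`, for any
trip.
-/

open NumberField Topology

namespace Vale.Agent.P011.D4Z

open Vale.Agent.P011.MPQ Vale.Agent.P011.D4 Vale.Agent.P011.D4.Oct Vale.Agent.P011.D4X
open Vale.Agent.P011.D4Y
open Vale.Agent.P011.E6
open scoped ComplexConjugate

variable {k L E : Type} [Field k] [NumberField k] [Field L] [NumberField L] [Field E]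
  [NumberField E] [Algebra k L] [Algebra k E] [Algebra L E]
  [IsScalarTower k L E] [NeZero (2 : E)] {ρ σ ι : E ≃ₐ[k] E} {α : E}
  {a b c : kˣ} {q : Lˣ}

/-- **The limits of the short moves**: three quaternions of norm one in the real forms at `W`,
`W ρ`, `W ρ²`, for any trip. -/
theorem zlim_xI (H : HyI ρ σ ι α a b c q) (ho : HOdd a q) [Algebra k ℂ] (W W' W'' : E →ₐ[k] ℂ)
    (hW : (W : E →+* ℂ) ∈ Bd ρ σ q)
    (hW' : (W' : E →+* ℂ) ∈ Bd ρ σ q) (hW'' : (W'' : E →+* ℂ) ∈ Bd ρ σ q)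
    (h' : W' = cmp W ρ) (h'' : W'' = cmp W' ρ)
    {b' c' : kˣ} {j l : Oct a b c} (h : Trip a b' c' gi j l) [NeZero (2 : ℂ)]
    {X1 X2 X3 : Qt (up ℂ a) (up ℂ b')} (n1 : nrd X1 = 1) (n2 : nrd X2 = 1) (n3 : nrd X3 = 1)
    (r1 : RQ a b' (W α) (W (algebraMap L E q)) X1)
    (r2 : RQ a b' (W α) (W' (algebraMap L E q)) X2)
    (r3 : RQ a b' (W α) (W'' (algebraMap L E q)) X3) :
    ∃ X ∈ cl (Bd ρ σ q) (RsI ρ σ ι α a b c q),
      (∀ y : OctL ℂ a b' c', act (X ⟨W, hW⟩) (tripO ℂ h y) =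
        tripO ℂ h ⟨X1 * y.fst * star X3, y.snd * star X2⟩) ∧
      (∀ y : OctL ℂ a b' c', act (X ⟨W', hW'⟩) (tripO ℂ h y) =
        tripO ℂ h ⟨X2 * y.fst * star X1, y.snd * star X3⟩) ∧
      (∀ y : OctL ℂ a b' c', act (X ⟨W'', hW''⟩) (tripO ℂ h y) =
        tripO ℂ h ⟨X3 * y.fst * star X2, y.snd * star X1⟩) ∧
      ∀ V : Bd ρ σ q, V.1.comp (algebraMap k E) ≠ algebraMap k ℂ → X V = 1 :=
  H408.zlim_xI_of H W W' W'' hW hW' hW'' h' h'' h (fun _ hx => H68.move_xI H ho h hx)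
    n1 n2 n3 r1 r2 r3

end Vale.Agent.P011.D4Z
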