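import Vale.Agent.P011.D4Z.H493.Ev
import Vale.Agent.P011.D4Z.H370.Dens
import Vale.Agent.P011.D4X.H657.Zx
import Vale.Agent.P011.D4X.Defs2

/-!
Block D4Z, row T3b: limits of the moves attached to quaternions of norm one.
-/

open NumberField Topology Filter

set_option linter.unusedSectionVars false

namespace Vale.Agent.P011.D4Z.H408

open Vale.Agent.P011.MPQ Vale.Agent.P011.D4 Vale.Agent.P011.D4.Oct Vale.Agent.P011.D4X
open Vale.Agent.P011.E6 (tripO tripO_apply)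
open Vale.Agent.P011.D4X.H637 (qn)
open scoped ComplexConjugate

section real

variable {k : Type} [Field k] [Algebra k ℂ]

/-- The value of `psiL`. -/
noncomputable def psC (a b : kˣ) (α t : ℂ) (v : Fin 4 → ℂ) : Qt (up ℂ a) (up ℂ b) :=
  ⟨v 0, v 1, (t * (v 2 + v 3 * α) + (v 2 - v 3 * α)) / 2,
    (t * (v 2 + v 3 * α) - (v 2 - v 3 * α)) / (2 * α)⟩

theorem exists_real {a b : kˣ} {α t : ℂ} (hα : conj α = -α) (hα0 : α ≠ 0) (ht : t ≠ 0)
    (h2 : α * α = algebraMap k ℂ a) {X : Qt (up ℂ a) (up ℂ b)} (h : RQ a b α t X) :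
    ∃ v : Fin 4 → ℝ, X = psC a b α t (fun i => (v i : ℂ)) := by
  have h2' : ((up ℂ a : ℂˣ) : ℂ) = α * α := h2.symm
  have e1 := congrArg QuaternionAlgebra.re h
  have e2 := congrArg QuaternionAlgebra.imI h
  have e3 := congrArg QuaternionAlgebra.imJ h
  have e4 := congrArg QuaternionAlgebra.imK h
  simp only [mq, cjq, QuaternionAlgebra.re_mul, QuaternionAlgebra.imI_mul,
    QuaternionAlgebra.imJ_mul, QuaternionAlgebra.imK_mul, h2', mul_zero, zero_mul, add_zero,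
    sub_zero, zero_add, zero_sub] at e1 e2 e3 e4
  field_simp at e1 e2 e3 e4
  have k1 : conj X.re + conj X.imI * α = X.re + X.imI * α := by
    apply mul_left_cancel₀ ht
    linear_combination (1 / 2) * e1 + (1 / 2) * e2
  have k2 : conj X.re - conj X.imI * α = X.re - X.imI * α := by
    linear_combination (1 / 2) * e1 - (1 / 2) * e2
  have k3 : t * (conj X.imJ + conj X.imK * α) = X.imJ + X.imK * α := by
    linear_combination (1 / 2) * e3 + (1 / 2) * e4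
  have k4 : conj X.imJ - conj X.imK * α = t * (X.imJ - X.imK * α) := by
    linear_combination (1 / 2) * e3 - (1 / 2) * e4
  have l1 : conj X.re = X.re := by linear_combination (1 / 2) * k1 + (1 / 2) * k2
  have l2 : conj X.imI = X.imI := by
    apply mul_left_cancel₀ hα0
    linear_combination (1 / 2) * k1 - (1 / 2) * k2
  have hI : α = (α.im : ℂ) * Complex.I := by
    have h3 := congrArg Complex.re hα
    rw [Complex.conj_re, Complex.neg_re] at h3
    apply Complex.ext <;> simp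
    linarith
  have him : (α.im : ℂ) ≠ 0 := by
    intro h3
    rw [h3, zero_mul] at hI
    exact hα0 hI
  set s : ℂ := X.imJ - X.imK * α with hs
  have hs' : conj s = conj X.imJ + conj X.imK * α := by
    rw [hs, map_sub, map_mul, hα]
    ring
  rw [← hs'] at k3
  have r1 : ((s.re : ℝ) : ℂ) + (s.im : ℝ) * Complex.I = s := Complex.re_add_im s
  have r2 : ((s.re : ℝ) : ℂ) - (s.im : ℝ) * Complex.I = conj s := by
    apply Complex.ext <;> simp
  have r3 : ((-(s.im) / α.im : ℝ) : ℂ) * α = -((s.im : ℝ) * Complex.I) := by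
    rw [Complex.ofReal_div, Complex.ofReal_neg]
    nth_rw 2 [hI]
    field_simp
  refine ⟨![X.re.re, X.imI.re, s.re, -s.im / α.im], ?_⟩
  unfold psC
  simp only [Matrix.cons_val]
  rw [r3]
  ext
  · exact (Complex.conj_eq_iff_re.1 l1).symm
  · exact (Complex.conj_eq_iff_re.1 l2).symm
  · rw [← sub_eq_add_neg, r2, sub_neg_eq_add, r1, k3, hs]
    ring
  · rw [← sub_eq_add_neg, r2, sub_neg_eq_add, r1, k3, hs]
    field_simp
    ring

theorem nrd_psC {a b : kˣ} {α t : ℂ} (hα0 : α ≠ 0) (h2 : α * α = algebraMap k ℂ a)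
    (v : Fin 4 → ℂ) : nrd (psC a b α t v) = v 0 ^ 2 - algebraMap k ℂ a * v 1 ^ 2 -
      t * algebraMap k ℂ b * v 2 ^ 2 + algebraMap k ℂ a * (t * algebraMap k ℂ b) * v 3 ^ 2 := by
  have h2' : ((up ℂ a : ℂˣ) : ℂ) = α * α := h2.symm
  have h3' : ((up ℂ b : ℂˣ) : ℂ) = algebraMap k ℂ b := rfl
  unfold nrd psC
  rw [h2', h3', ← h2]
  field_simp
  ring

end real

section lim

variable {X : Type} {F : Filter X} {k E : Type} [Field k] [Field E] [Algebra k E]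
  {S : Set (E →+* ℂ)} {a b c b' c' : kˣ} {j l : Oct a b c}

theorem TO.tripO' [NeZero (2 : E)] (h : Trip a b' c' gi j l) {f : X → OctL E a b' c'}
    {x : OctL E a b' c'} (hf : TO S F f x) :
    TO S F (fun v => tripO E h (f v)) (tripO E h x) := by
  have h1 : ∀ {f : X → Qt (up E a) (up E b')} {x}, TQ S F f x → TO S F
      (fun v => qemb (oup E gi) (oup E j) (f v)) (qemb (oup E gi) (oup E j) x) := by
    intro f x hf
    exact (((TO.const S F _).smul hf.1).add ((TO.const S F _).smul hf.2.1)).add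
      ((TO.const S F _).smul hf.2.2.1) |>.add ((TO.const S F _).smul hf.2.2.2)
  simp only [tripO_apply]
  exact (h1 hf.1).add ((h1 hf.2).mul (TO.const S F _))

theorem TO.co8' {f : X → Oct a b c} {x : Oct a b c} {S : Set (k →+* ℂ)} (hf : TO S F f x)
    (i : Fin 8) : TE S F (fun v => co8 (f v) i) (co8 x i) := by
  obtain ⟨⟨h0, h1, h2, h3⟩, h4, h5, h6, h7⟩ := hf
  fin_cases i
  · exact h0
  · exact h1
  · exact h2
  · exact h3
  · exact h4
  · exact h5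
  · exact h6
  · exact h7

end lim

section ent

variable {k L E : Type} [Field k] [Field L] [Field E] [Algebra k L] [Algebra k E] [Algebra L E]
  [IsScalarTower k L E] [NeZero (2 : E)] [NeZero (2 : ℂ)] [Algebra k ℂ] {ρ σ : E ≃ₐ[k] E} {α : E}
  {a b c b' c' : kˣ} {q : Lˣ} {j l : Oct a b c} {V : E →ₐ[k] ℂ}

theorem ev_oup (x : Oct a b c) : ev V (oup E x) = oup ℂ x := by
  apply co8_inj
  funext i
  rw [co8_ev]
  fin_cases i <;> exact V.commutes _

theorem ev_tripO (h : Trip a b' c' gi j l) (y : OctL E a b' c') :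
    ev V (tripO E h y) = tripO ℂ h (ev V y) := by
  have h1 : ∀ x : Qt (up E a) (up E b'), ev V (qemb (oup E (gi : Oct a b c)) (oup E j) x) =
      qemb (oup ℂ (gi : Oct a b c)) (oup ℂ j) (evq V x) := by
    intro x
    unfold qemb
    rw [ev_add, ev_add, ev_add, ev_smul, ev_smul, ev_smul, ev_smul, ev_mul, ev_oup, ev_oup]
    congr 4
    have h2 := ev_oup (V := V) (1 : Oct a b c)
    rw [oup_one, oup_one] at h2
    exact h2
  rw [tripO_apply, tripO_apply]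
  unfold emb
  rw [ev_add, ev_mul, h1, h1, ev_oup]
  rfl

theorem evq_psiL (x : Qt (up L a) (q * up L b)) :
    evq V (psiL α q x) = psC a b (V α) (V (algebraMap L E q))
      ![V (algebraMap L E x.re), V (algebraMap L E x.imI), V (algebraMap L E x.imJ),
        V (algebraMap L E x.imK)] := by
  unfold evq psiL psC
  ext <;> simp [map_ofNat]

theorem evq_qmap (x : Qt (up E a) (up E b)) : evq V (qmap ρ x) = evq (cmp V ρ) x := rfl

theorem ev_zFun (X w : Qt (up E a) (up E b)) (y : OctL E a b c) :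
    ev V (zFun ρ X w 1 y) = ⟨evq V X * (ev V y).fst * star (evq (cmp (cmp V ρ) ρ) X),
      evq V w * (ev V y).snd * star (evq (cmp V ρ) X)⟩ := by
  rw [ev_eq, fst_zFun, snd_zFun, one_smul, evq_mul, evq_mul, evq_mul, evq_mul, evq_star, evq_star,
    evq_qmap, evq_qmap, evq_qmap]
  rfl

/-- The complex move. -/
noncomputable def zC (h : Trip a b' c' gi j l) (P1 P2 P3 P0 : Qt (up ℂ a) (up ℂ b')) :
    OctL ℂ a b c →ₗ[ℂ] OctL ℂ a b c where
  toFun y := tripO ℂ h ⟨P1 * ((tripO ℂ h).symm y).fst * star P3,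
    P0 * ((tripO ℂ h).symm y).snd * star P2⟩
  map_add' x y := by
    rw [← map_add]
    congr 1
    rw [map_add]
    ext1
    · simp only [fst_add, mul_add, add_mul]
    · simp only [snd_add, mul_add, add_mul]
  map_smul' t x := by
    rw [RingHom.id_apply, ← map_smul]
    congr 1
    rw [map_smul]
    ext1
    · simp only [fst_smul, mul_smul_comm, smul_mul_assoc]
    · simp only [snd_smul, mul_smul_comm, smul_mul_assoc]

theorem zC_apply (h : Trip a b' c' gi j l) (P1 P2 P3 P0 : Qt (up ℂ a) (up ℂ b'))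
    (y : OctL ℂ a b' c') : zC h P1 P2 P3 P0 (tripO ℂ h y) =
      tripO ℂ h ⟨P1 * y.fst * star P3, P0 * y.snd * star P2⟩ := by
  change tripO ℂ h ⟨P1 * ((tripO ℂ h).symm (tripO ℂ h y)).fst * star P3,
    P0 * ((tripO ℂ h).symm (tripO ℂ h y)).snd * star P2⟩ = _
  rw [LinearEquiv.symm_apply_apply]

/-- The matrix of a complex linear map. -/
noncomputable def mC (f : OctL ℂ a b c →ₗ[ℂ] OctL ℂ a b c) : Matrix (Fin 8) (Fin 8) ℂ :=
  matW (RingHom.id ℂ) f

theorem act_mC (f : OctL ℂ a b c →ₗ[ℂ] OctL ℂ a b c) (y : OctL ℂ a b c) :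
    act (mC f) y = f y := act_matW (W := AlgHom.id k ℂ) f y

theorem tendsto_entry (h : Trip a b' c' gi j l) (Xn wn : ℕ → Qt (up E a) (up E b'))
    (zn : ℕ → OctL E a b c ≃ₗ[E] OctL E a b c)
    (hz : ∀ n y, zn n (tripO E h y) = tripO E h (zFun ρ (Xn n) (wn n) 1 y))
    {P1 P2 P3 P0 : Qt (up ℂ a) (up ℂ b')}
    (h1 : TQ {RingHom.id ℂ} atTop (fun n => evq V (Xn n)) P1)
    (h2 : TQ {RingHom.id ℂ} atTop (fun n => evq (cmp V ρ) (Xn n)) P2)
    (h3 : TQ {RingHom.id ℂ} atTop (fun n => evq (cmp (cmp V ρ) ρ) (Xn n)) P3)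
    (h0 : TQ {RingHom.id ℂ} atTop (fun n => evq V (wn n)) P0) :
    Tendsto (fun n => matW (V : E →+* ℂ) (zn n)) atTop (𝓝 (mC (zC h P1 P2 P3 P0))) := by
  refine tendsto_pi_nhds.2 fun i => tendsto_pi_nhds.2 fun m => ?_
  set e : OctL E a b c := of8 (Pi.single m 1) with he
  have e1 : ev V e = of8 (Pi.single m 1) := ev_single m
  set y := (tripO E h).symm e with hy
  have e2 : tripO E h y = e := LinearEquiv.apply_symm_apply _ _
  have e3 : (tripO ℂ h).symm (ev V e) = ev V y := by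
    rw [LinearEquiv.symm_apply_eq, ← ev_tripO, e2]
  have e4 : ∀ n, matW (V : E →+* ℂ) (zn n) i m = co8 (tripO ℂ h
      ⟨evq V (Xn n) * (ev V y).fst * star (evq (cmp (cmp V ρ) ρ) (Xn n)),
        evq V (wn n) * (ev V y).snd * star (evq (cmp V ρ) (Xn n))⟩) i := by
    intro n
    rw [← ev_zFun, ← ev_tripO, ← hz, e2, co8_ev]
    rfl
  have e5 : mC (zC h P1 P2 P3 P0) i m = co8 (tripO ℂ h ⟨P1 * (ev V y).fst * star P3,
      P0 * (ev V y).snd * star P2⟩) i := by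
    rw [← zC_apply, ← ev_tripO, e2, e1]
    rfl
  have h6 : TO {RingHom.id ℂ} atTop (fun n => tripO ℂ h
      (⟨evq V (Xn n) * (ev V y).fst * star (evq (cmp (cmp V ρ) ρ) (Xn n)),
        evq V (wn n) * (ev V y).snd * star (evq (cmp V ρ) (Xn n))⟩ : OctL ℂ a b' c'))
      (tripO ℂ h ⟨P1 * (ev V y).fst * star P3, P0 * (ev V y).snd * star P2⟩) :=
    TO.tripO' h ⟨(h1.mul (TQ.const _ _ _)).mul h3.star, (h0.mul (TQ.const _ _ _)).mul h2.star⟩
  have h7 := TO.co8' h6 i _ rfl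
  simp only [RingHom.id_apply] at h7
  rw [e5]
  exact h7.congr fun n => (e4 n).symm

end ent

section seq

theorem exists_rl {L : Type} [Field L] {V : L →+* ℂ} (h : ∀ y, (V y).im = 0) :
    ∃ τ : L →+* ℝ, ∀ y, (τ y : ℂ) = V y :=
  ⟨{ toFun := fun y => (V y).re
     map_one' := by simp
     map_mul' := fun x y => by simp [h]
     map_zero' := by simp
     map_add' := fun x y => by simp }, fun y => Complex.ext rfl (by simp [h])⟩

theorem exists_seq {F : Type} [Field F] [NumberField F] {A B : Fˣ} (tgt : (F →+* ℝ) → Fin 4 → ℝ)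
    (h : ∀ τ, tgt τ 0 ^ 2 - τ A * tgt τ 1 ^ 2 - τ B * tgt τ 2 ^ 2 + τ A * τ B * tgt τ 3 ^ 2 = 1) :
    ∃ x : ℕ → Qt A B, (∀ n, nrd (x n) = 1) ∧ ∀ τ : F →+* ℝ,
      Tendsto (fun n => ![τ (x n).re, τ (x n).imI, τ (x n).imJ, τ (x n).imK]) atTop
        (𝓝 (tgt τ)) := by
  classical
  have := Fintype.ofFinite (F →+* ℝ)
  have h1 : ∀ n : ℕ, (0 : ℝ) < 1 / ((n : ℝ) + 1) := fun n => Nat.one_div_pos_of_nat
  choose x hx hx' using fun n : ℕ => H370.exists_sl1_near (A := A) (B := B)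
    (Finset.univ : Finset (F →+* ℝ)) (fun τ => ⟨tgt τ 0, tgt τ 1, tgt τ 2, tgt τ 3⟩)
    (fun τ _ => by simpa only [qn] using h τ) (h1 n)
  refine ⟨x, hx, fun τ => tendsto_pi_nhds.2 fun i => ?_⟩
  rw [tendsto_iff_dist_tendsto_zero]
  refine squeeze_zero (fun n => dist_nonneg) (fun n => ?_) tendsto_one_div_add_atTop_nhds_zero_nat
  have h2 := hx' n τ (Finset.mem_univ τ)
  rw [Real.dist_eq]
  fin_cases i
  · exact h2.1.le
  · exact h2.2.1.le
  · exact h2.2.2.1.le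
  · exact h2.2.2.2.le

theorem TQ_psC {k : Type} [Field k] [Algebra k ℂ] {a b : kˣ} {α t : ℂ} {vn : ℕ → Fin 4 → ℂ}
    {v : Fin 4 → ℂ} (h : Tendsto vn atTop (𝓝 v)) :
    TQ {RingHom.id ℂ} atTop (fun n => psC a b α t (vn n)) (psC a b α t v) := by
  have c1 : Continuous fun v : Fin 4 → ℂ => (psC a b α t v).re := by
    unfold psC
    fun_prop
  have c2 : Continuous fun v : Fin 4 → ℂ => (psC a b α t v).imI := by
    unfold psC
    fun_prop
  have c3 : Continuous fun v : Fin 4 → ℂ => (psC a b α t v).imJ := by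
    unfold psC
    fun_prop
  have c4 : Continuous fun v : Fin 4 → ℂ => (psC a b α t v).imK := by
    unfold psC
    fun_prop
  refine ⟨?_, ?_, ?_, ?_⟩ <;> (intro w hw; rw [Set.mem_singleton_iff] at hw; subst hw)
  · exact (c1.tendsto v).comp h
  · exact (c2.tendsto v).comp h
  · exact (c3.tendsto v).comp h
  · exact (c4.tendsto v).comp h

theorem psC_one {k : Type} [Field k] [Algebra k ℂ] {a b : kˣ} {α t : ℂ} :
    psC a b α t ![1, 0, 0, 0] = 1 := by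
  unfold psC
  ext <;> simp

end seq

section main

variable {k L E : Type} [Field k] [NumberField k] [Field L] [NumberField L] [Field E]
  [NumberField E] [Algebra k L] [Algebra k E] [Algebra L E]
  [IsScalarTower k L E] [NeZero (2 : E)] {ρ σ : E ≃ₐ[k] E} {ρL : L ≃ₐ[k] L} {α : E}
  {a b c : kˣ} {q : Lˣ}

theorem lim_psi [Algebra k ℂ] {V : E →ₐ[k] ℂ} {b' : kˣ} {v : Fin 4 → ℝ}
    {x : ℕ → Qt (up L a) (q * up L b')} {τ : L →+* ℝ}
    (hx : Tendsto (fun n => ![τ (x n).re, τ (x n).imI, τ (x n).imJ, τ (x n).imK]) atTop (𝓝 v))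
    (hτ : ∀ y, (τ y : ℂ) = V (algebraMap L E y)) :
    TQ {RingHom.id ℂ} atTop (fun n => evq V (psiL α q (x n)))
      (psC a b' (V α) (V (algebraMap L E q)) (fun i => (v i : ℂ))) := by
  simp only [evq_psiL]
  refine TQ_psC (tendsto_pi_nhds.2 fun i => ?_)
  have h1 := (Complex.continuous_ofReal.tendsto (v i)).comp (tendsto_pi_nhds.1 hx i)
  refine h1.congr fun n => ?_
  fin_cases i
  · exact hτ _
  · exact hτ _
  · exact hτ _
  · exact hτ _

theorem tgt_norm [Algebra k ℂ] {V : E →ₐ[k] ℂ} {b' : kˣ} {v : Fin 4 → ℝ} {τ : L →+* ℝ}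
    (hτ : ∀ y, (τ y : ℂ) = V (algebraMap L E y)) (hα0 : V α ≠ 0)
    (h2 : V α * V α = algebraMap k ℂ a)
    (hn : nrd (psC a b' (V α) (V (algebraMap L E q)) (fun i => (v i : ℂ))) = 1) :
    v 0 ^ 2 - τ ((up L a : Lˣ) : L) * v 1 ^ 2 - τ ((q * up L b' : Lˣ) : L) * v 2 ^ 2 +
      τ ((up L a : Lˣ) : L) * τ ((q * up L b' : Lˣ) : L) * v 3 ^ 2 = 1 := by
  rw [nrd_psC hα0 h2] at hn
  have h3 : ∀ t : k, ((τ (algebraMap k L t) : ℝ) : ℂ) = algebraMap k ℂ t := by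
    intro t
    rw [hτ, ← IsScalarTower.algebraMap_apply k L E]
    exact V.commutes t
  have h4 : ((τ ((up L a : Lˣ) : L) : ℝ) : ℂ) = algebraMap k ℂ a := h3 a
  have h5 : ((τ ((q * up L b' : Lˣ) : L) : ℝ) : ℂ) =
      V (algebraMap L E q) * algebraMap k ℂ b' := by
    rw [Units.val_mul, map_mul, Complex.ofReal_mul, hτ]
    congr 1
    exact h3 b'
  rw [← h4, ← h5] at hn
  exact_mod_cast hn

theorem evq_one [Algebra k ℂ] {V : E →ₐ[k] ℂ} {b' : kˣ} :
    evq V (1 : Qt (up E a) (up E b')) = 1 := by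
  unfold evq
  ext <;> simp

theorem mC_zC_one [Algebra k ℂ] [NeZero (2 : ℂ)] {b' c' : kˣ} {j l : Oct a b c}
    (h : Trip a b' c' gi j l) : mC (zC h 1 1 1 1) = 1 := by
  refine act_inj (a := up ℂ a) (b := up ℂ b) (c := up ℂ c) fun y => ?_
  rw [act_mC, act_one]
  obtain ⟨y, rfl⟩ := (tripO ℂ h).surjective y
  rw [zC_apply, star_one, mul_one, one_mul, mul_one, one_mul]

theorem lim_mat [Algebra k ℂ] [NeZero (2 : ℂ)] {b' c' : kˣ} {j l : Oct a b c}
    (h : Trip a b' c' gi j l) {V : E →ₐ[k] ℂ} {x : ℕ → Qt (up L a) (q * up L b')}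
    {x0 : ℕ → Qt (up E a) (up E b')} {P0 : Qt (up ℂ a) (up ℂ b')}
    {z : ℕ → OctL E a b c ≃ₗ[E] OctL E a b c}
    (hz : ∀ n y, z n (tripO E h y) = tripO E h (zFun ρ (psiL α q (x n)) (x0 n) 1 y))
    {tgt : (L →+* ℝ) → Fin 4 → ℝ}
    (hx : ∀ τ : L →+* ℝ, Tendsto
      (fun n => ![τ (x n).re, τ (x n).imI, τ (x n).imJ, τ (x n).imK]) atTop (𝓝 (tgt τ)))
    (h0 : TQ {RingHom.id ℂ} atTop (fun n => evq V (x0 n)) P0)
    {τ1 τ2 τ3 : L →+* ℝ} (h1 : ∀ y, (τ1 y : ℂ) = V (algebraMap L E y))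
    (h2 : ∀ y, (τ2 y : ℂ) = cmp V ρ (algebraMap L E y))
    (h3 : ∀ y, (τ3 y : ℂ) = cmp (cmp V ρ) ρ (algebraMap L E y)) :
    Tendsto (fun n => matW (V : E →+* ℂ) (z n)) atTop (𝓝 (mC (zC h
      (psC a b' (V α) (V (algebraMap L E q)) (fun i => (tgt τ1 i : ℂ)))
      (psC a b' (cmp V ρ α) (cmp V ρ (algebraMap L E q)) (fun i => (tgt τ2 i : ℂ)))
      (psC a b' (cmp (cmp V ρ) ρ α) (cmp (cmp V ρ) ρ (algebraMap L E q))
        (fun i => (tgt τ3 i : ℂ))) P0))) :=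
  tendsto_entry h (fun n => psiL α q (x n)) x0 z hz (lim_psi (hx τ1) h1) (lim_psi (hx τ2) h2)
    (lim_psi (hx τ3) h3) h0

theorem TQ_evq_one [Algebra k ℂ] {V : E →ₐ[k] ℂ} {b' : kˣ} :
    TQ {RingHom.id ℂ} (atTop : Filter ℕ) (fun _ => evq V (1 : Qt (up E a) (up E b'))) 1 := by
  simp only [evq_one]
  exact TQ.const _ _ _

theorem lim_off (H : Hy ρ σ ρL α a b c q) [NeZero (2 : ℂ)] {b' c' : kˣ} {j l : Oct a b c}
    (h : Trip a b' c' gi j l) {V : E →+* ℂ} (hV : V ∈ Bd ρ σ q)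
    {x : ℕ → Qt (up L a) (q * up L b')} {z : ℕ → OctL E a b c ≃ₗ[E] OctL E a b c}
    (hz : ∀ n y, z n (tripO E h y) = tripO E h (zFun ρ (psiL α q (x n)) 1 1 y))
    {tgt : (L →+* ℝ) → Fin 4 → ℝ}
    (hx : ∀ τ : L →+* ℝ, Tendsto
      (fun n => ![τ (x n).re, τ (x n).imI, τ (x n).imJ, τ (x n).imK]) atTop (𝓝 (tgt τ)))
    (h0 : ∀ τ : L →+* ℝ, (∀ t : k, (τ (algebraMap k L t) : ℂ) = V (algebraMap k E t)) →
      tgt τ = ![1, 0, 0, 0]) :
    Tendsto (fun n => matW V (z n)) atTop (𝓝 1) := by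
  let _ : Algebra k ℂ := (V.comp (algebraMap k E)).toAlgebra
  let U : E →ₐ[k] ℂ := { V with commutes' := fun t => rfl }
  have hU : (U : E →+* ℂ) = V := rfl
  have b1 := Bd_rho H _ hV
  have b2 := Bd_rho H _ b1
  obtain ⟨τ1, h1⟩ := exists_rl (V := V.comp (algebraMap L E)) fun y => Bd_im hV (H.σL y)
  obtain ⟨τ2, h2⟩ := exists_rl (V := (V.comp (ρ : E →+* E)).comp (algebraMap L E))
    fun y => Bd_im b1 (H.σL y)
  obtain ⟨τ3, h3⟩ := exists_rl
    (V := ((V.comp (ρ : E →+* E)).comp (ρ : E →+* E)).comp (algebraMap L E))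
    fun y => Bd_im b2 (H.σL y)
  have e1 : tgt τ1 = ![1, 0, 0, 0] := h0 _ fun t => by
    rw [h1, IsScalarTower.algebraMap_apply k L E]
    rfl
  have e2 : tgt τ2 = ![1, 0, 0, 0] := h0 _ fun t => by
    rw [h2]
    change V (ρ (algebraMap L E (algebraMap k L t))) = _
    rw [← IsScalarTower.algebraMap_apply k L E, ρ.commutes]
  have e3 : tgt τ3 = ![1, 0, 0, 0] := h0 _ fun t => by
    rw [h3]
    change V (ρ (ρ (algebraMap L E (algebraMap k L t)))) = _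
    rw [← IsScalarTower.algebraMap_apply k L E, ρ.commutes, ρ.commutes]
  have h4 := lim_mat h (V := U) hz hx TQ_evq_one h1 h2 h3
  rw [e1, e2, e3] at h4
  have e4 : (fun i => (((![1, 0, 0, 0] : Fin 4 → ℝ) i : ℝ) : ℂ)) = ![1, 0, 0, 0] := by
    funext i
    fin_cases i <;> simp
  rw [e4, psC_one, psC_one, psC_one, mC_zC_one] at h4
  exact h4

/-- **The limits of the moves**, from the membership. -/
theorem zlim_x_of (H : Hy ρ σ ρL α a b c q) [Algebra k ℂ] (W W' W'' : E →ₐ[k] ℂ)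
    (hW : (W : E →+* ℂ) ∈ Bd ρ σ q)
    (hW' : (W' : E →+* ℂ) ∈ Bd ρ σ q) (hW'' : (W'' : E →+* ℂ) ∈ Bd ρ σ q)
    (h' : W' = cmp W ρ) (h'' : W'' = cmp W' ρ)
    {b' c' : kˣ} {j l : Oct a b c} (h : Trip a b' c' gi j l) [NeZero (2 : ℂ)]
    (hmem : ∀ x : Qt (up L a) (q * up L b'), nrd x = 1 → ∃ z ∈ Rs ρ σ α a b c q,
      ∀ y : OctL E a b' c', z (tripO E h y) = tripO E h (zFun ρ (psiL α q x) 1 1 y))
    {X1 X2 X3 : Qt (up ℂ a) (up ℂ b')} (n1 : nrd X1 = 1) (n2 : nrd X2 = 1) (n3 : nrd X3 = 1)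
    (r1 : RQ a b' (W α) (W (algebraMap L E q)) X1)
    (r2 : RQ a b' (W α) (W' (algebraMap L E q)) X2)
    (r3 : RQ a b' (W α) (W'' (algebraMap L E q)) X3) :
    ∃ X ∈ cl (Bd ρ σ q) (Rs ρ σ α a b c q),
      (∀ y : OctL ℂ a b' c', act (X ⟨W, hW⟩) (tripO ℂ h y) =
        tripO ℂ h ⟨X1 * y.fst * star X3, y.snd * star X2⟩) ∧
      (∀ y : OctL ℂ a b' c', act (X ⟨W', hW'⟩) (tripO ℂ h y) =
        tripO ℂ h ⟨X2 * y.fst * star X1, y.snd * star X3⟩) ∧
      (∀ y : OctL ℂ a b' c', act (X ⟨W'', hW''⟩) (tripO ℂ h y) =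
        tripO ℂ h ⟨X3 * y.fst * star X2, y.snd * star X1⟩) ∧
      ∀ V : Bd ρ σ q, V.1.comp (algebraMap k E) ≠ algebraMap k ℂ → X V = 1 := by
  classical
  have ha0 : α ≠ 0 := by
    intro h0
    have h1 := H.α2
    rw [h0, zero_mul] at h1
    exact a.ne_zero ((map_eq_zero _).1 h1.symm)
  have hα0 : W α ≠ 0 := (map_ne_zero W).2 ha0
  have hα : conj (W α) = -W α := by
    have h1 := hW.1 α
    rw [H.σα] at h1
    change W (-α) = conj (W α) at h1
    rw [← h1, map_neg]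
  have h2 : W α * W α = algebraMap k ℂ a := by
    rw [← map_mul, H.α2]
    exact W.commutes _
  have hq0 : algebraMap L E (q : L) ≠ 0 := (map_ne_zero _).2 q.ne_zero
  have a' : W' α = W α := by
    rw [h']
    exact congrArg W H.ρα
  have a'' : W'' α = W α := by
    rw [h'']
    exact (congrArg W' H.ρα).trans a'
  obtain ⟨v1, rfl⟩ := exists_real hα hα0 ((map_ne_zero W).2 hq0) h2 r1
  obtain ⟨v2, rfl⟩ := exists_real hα hα0 ((map_ne_zero W').2 hq0) h2 r2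
  obtain ⟨v3, rfl⟩ := exists_real hα hα0 ((map_ne_zero W'').2 hq0) h2 r3
  have hre : ∀ V ∈ Bd ρ σ q, ∃ τ : L →+* ℝ, ∀ y, (τ y : ℂ) = V (algebraMap L E y) :=
    fun V hV => exists_rl (V := V.comp (algebraMap L E)) fun y => Bd_im hV (H.σL y)
  obtain ⟨w1, hw1⟩ := hre _ hW
  obtain ⟨w2, hw2⟩ := hre _ hW'
  obtain ⟨w3, hw3⟩ := hre _ hW''
  have s2 : ∀ y, w2 y = w1 (ρL y) := by
    intro y
    have h1 : ((w2 y : ℝ) : ℂ) = ((w1 (ρL y) : ℝ) : ℂ) := by
      rw [hw2, hw1, h', ← H.ρL']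
      rfl
    exact_mod_cast h1
  have s3 : ∀ y, w3 y = w2 (ρL y) := by
    intro y
    have h1 : ((w3 y : ℝ) : ℂ) = ((w2 (ρL y) : ℝ) : ℂ) := by
      rw [hw3, hw2, h'', ← H.ρL']
      rfl
    exact_mod_cast h1
  have ρL3 : ∀ y, ρL (ρL (ρL y)) = y := fun y => (algebraMap L E).injective (by
    rw [← H.ρL', ← H.ρL', ← H.ρL', H.ρ3])
  have inj : ∀ τ : L →+* ℝ, (∀ y, τ y = τ (ρL y)) → False := by
    intro τ h1
    apply H.ρ1
    ext y
    exact (τ.injective (h1 y)).symm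
  have d12 : w1 ≠ w2 := fun h1 => inj w1 fun y => by rw [← s2, ← h1]
  have d23 : w2 ≠ w3 := fun h1 => inj w2 fun y => by rw [← s3, ← h1]
  have d13 : w1 ≠ w3 := fun h1 => inj w1 fun y => by
    have h3 : w1 (ρL y) = w3 (ρL y) := by rw [← h1]
    rw [h3, s3, s2, ρL3]
  have c3 : cmp W'' ρ = W := by
    rw [h'', h']
    exact AlgHom.ext fun y => congrArg W (H.ρ3 y)
  set tgt : (L →+* ℝ) → Fin 4 → ℝ := fun τ => if τ = w1 then v1 else if τ = w2 then v2 else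
    if τ = w3 then v3 else ![1, 0, 0, 0] with htgt
  have t1 : tgt w1 = v1 := if_pos rfl
  have t2 : tgt w2 = v2 := by simp [htgt, d12.symm]
  have t3 : tgt w3 = v3 := by simp [htgt, d13.symm, d23.symm]
  have t0 : ∀ τ, τ ≠ w1 → τ ≠ w2 → τ ≠ w3 → tgt τ = ![1, 0, 0, 0] := by
    intro τ g1 g2 g3
    simp only [htgt]
    rw [if_neg g1, if_neg g2, if_neg g3]
  have n2' := n2
  have n3' := n3
  rw [← a'] at n2'
  rw [← a''] at n3'
  have hn : ∀ τ, tgt τ 0 ^ 2 - τ ((up L a : Lˣ) : L) * tgt τ 1 ^ 2 -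
      τ ((q * up L b' : Lˣ) : L) * tgt τ 2 ^ 2 +
      τ ((up L a : Lˣ) : L) * τ ((q * up L b' : Lˣ) : L) * tgt τ 3 ^ 2 = 1 := by
    intro τ
    by_cases g1 : τ = w1
    · rw [g1, t1]
      exact tgt_norm hw1 hα0 h2 n1
    by_cases g2 : τ = w2
    · rw [g2, t2]
      exact tgt_norm hw2 (by rw [a']; exact hα0) (by rw [a']; exact h2) n2'
    by_cases g3 : τ = w3
    · rw [g3, t3]
      exact tgt_norm hw3 (by rw [a'']; exact hα0) (by rw [a'']; exact h2) n3'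
    rw [t0 τ g1 g2 g3]
    simp
  obtain ⟨x, hx, hx'⟩ := exists_seq (A := up L a) (B := q * up L b') tgt hn
  choose z hz hz' using fun n => hmem (x n) (hx n)
  have lim1 := lim_mat (P0 := 1) h (V := W) hz' hx' TQ_evq_one hw1
    (fun y => by rw [← h']; exact hw2 y) (fun y => by rw [← h', ← h'']; exact hw3 y)
  have lim2 := lim_mat (P0 := 1) h (V := W') hz' hx' TQ_evq_one hw2
    (fun y => by rw [← h'']; exact hw3 y) (fun y => by rw [← h'', c3]; exact hw1 y)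
  have lim3 := lim_mat (P0 := 1) h (V := W'') hz' hx' TQ_evq_one hw3
    (fun y => by rw [c3]; exact hw1 y) (fun y => by rw [c3, ← h']; exact hw2 y)
  rw [← h', ← h'', t1, t2, t3, a', a''] at lim1
  rw [← h'', c3, t1, t2, t3, a', a''] at lim2
  rw [c3, ← h', t1, t2, t3, a', a''] at lim3
  have limV : ∀ V : Bd ρ σ q, ∃ M : Matrix (Fin 8) (Fin 8) ℂ,
      Tendsto (fun n => matW V.1 (z n)) atTop (𝓝 M) ∧
        (V.1.comp (algebraMap k E) ≠ algebraMap k ℂ → M = 1) := by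
    rintro ⟨V, hV⟩
    by_cases g : V.comp (algebraMap k E) = algebraMap k ℂ
    · let U : E →ₐ[k] ℂ := { V with commutes' := fun t => RingHom.congr_fun g t }
      have b1 := Bd_rho H _ hV
      have b2 := Bd_rho H _ b1
      obtain ⟨τ1, h1⟩ := hre _ hV
      obtain ⟨τ2, h2⟩ := hre _ b1
      obtain ⟨τ3, h3⟩ := hre _ b2
      exact ⟨_, lim_mat (P0 := 1) h (V := U) hz' hx' TQ_evq_one h1 h2 h3, fun g' => absurd g g'⟩
    · refine ⟨1, lim_off H h hV hz' hx' fun τ hτ => t0 τ ?_ ?_ ?_, fun _ => rfl⟩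
      · rintro rfl
        apply g
        ext t
        change V (algebraMap k E t) = _
        rw [← hτ, hw1, ← IsScalarTower.algebraMap_apply k L E]
        exact W.commutes t
      · rintro rfl
        apply g
        ext t
        change V (algebraMap k E t) = _
        rw [← hτ, hw2, ← IsScalarTower.algebraMap_apply k L E]
        exact W'.commutes t
      · rintro rfl
        apply g
        ext t
        change V (algebraMap k E t) = _
        rw [← hτ, hw3, ← IsScalarTower.algebraMap_apply k L E]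
        exact W''.commutes t
  choose M hM hM' using limV
  refine ⟨M, ?_, fun y => ?_, fun y => ?_, fun y => ?_, hM'⟩
  · refine mem_closure_of_tendsto (f := fun n => mat (Bd ρ σ q) (z n)) (b := atTop) ?_
      (Eventually.of_forall fun n => ⟨z n, hz n, rfl⟩)
    exact tendsto_pi_nhds.2 fun V => hM V
  · rw [tendsto_nhds_unique (hM ⟨W, hW⟩) lim1, act_mC, zC_apply, one_mul]
  · rw [tendsto_nhds_unique (hM ⟨W', hW'⟩) lim2, act_mC, zC_apply, one_mul]
  · rw [tendsto_nhds_unique (hM ⟨W'', hW''⟩) lim3, act_mC, zC_apply, one_mul]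

theorem lim_qup [Algebra k ℂ] {V : E →ₐ[k] ℂ} {b' : kˣ} {v : Fin 4 → ℝ}
    {x : ℕ → Qt a b'} {τ : k →+* ℝ}
    (hx : Tendsto (fun n => ![τ (x n).re, τ (x n).imI, τ (x n).imJ, τ (x n).imK]) atTop (𝓝 v))
    (hτ : ∀ y, (τ y : ℂ) = algebraMap k ℂ y) :
    TQ {RingHom.id ℂ} atTop (fun n => evq V (qup E (x n)))
      ⟨(v 0 : ℂ), (v 1 : ℂ), (v 2 : ℂ), (v 3 : ℂ)⟩ := by
  have h1 : ∀ i, Tendsto (fun n => (((![τ (x n).re, τ (x n).imI, τ (x n).imJ, τ (x n).imK] :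
      Fin 4 → ℝ) i : ℝ) : ℂ)) atTop (𝓝 (v i : ℂ)) :=
    fun i => (Complex.continuous_ofReal.tendsto (v i)).comp (tendsto_pi_nhds.1 hx i)
  have h2 : ∀ t : k, ((τ t : ℝ) : ℂ) = V (algebraMap k E t) := fun t => by
    rw [hτ]
    exact (V.commutes t).symm
  refine ⟨?_, ?_, ?_, ?_⟩ <;> (intro w hw; rw [Set.mem_singleton_iff] at hw; subst hw)
  · exact (h1 0).congr fun n => h2 _
  · exact (h1 1).congr fun n => h2 _
  · exact (h1 2).congr fun n => h2 _
  · exact (h1 3).congr fun n => h2 _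

theorem lim_mat0 [Algebra k ℂ] [NeZero (2 : ℂ)] {b' c' : kˣ} {j l : Oct a b c}
    (h : Trip a b' c' gi j l) {V : E →ₐ[k] ℂ} {x : ℕ → Qt a b'}
    {z : ℕ → OctL E a b c ≃ₗ[E] OctL E a b c}
    (hz : ∀ n y, z n (tripO E h y) = tripO E h (zFun ρ 1 (qup E (x n)) 1 y))
    {v : Fin 4 → ℝ} {τ : k →+* ℝ}
    (hx : Tendsto (fun n => ![τ (x n).re, τ (x n).imI, τ (x n).imJ, τ (x n).imK]) atTop (𝓝 v))
    (hτ : ∀ y, (τ y : ℂ) = algebraMap k ℂ y) :
    Tendsto (fun n => matW (V : E →+* ℂ) (z n)) atTop (𝓝 (mC (zC h 1 1 1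
      ⟨(v 0 : ℂ), (v 1 : ℂ), (v 2 : ℂ), (v 3 : ℂ)⟩))) :=
  tendsto_entry h (fun _ => 1) (fun n => qup E (x n)) z hz TQ_evq_one TQ_evq_one TQ_evq_one
    (lim_qup hx hτ)

theorem lim_off0 [NeZero (2 : ℂ)] {b' c' : kˣ} {j l : Oct a b c}
    (h : Trip a b' c' gi j l) {V : E →+* ℂ} {x : ℕ → Qt a b'}
    {z : ℕ → OctL E a b c ≃ₗ[E] OctL E a b c}
    (hz : ∀ n y, z n (tripO E h y) = tripO E h (zFun ρ 1 (qup E (x n)) 1 y))
    {v : Fin 4 → ℝ} {τ : k →+* ℝ}
    (hx : Tendsto (fun n => ![τ (x n).re, τ (x n).imI, τ (x n).imJ, τ (x n).imK]) atTop (𝓝 v))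
    (hτ : ∀ y, (τ y : ℂ) = V (algebraMap k E y)) (hv : v = ![1, 0, 0, 0]) :
    Tendsto (fun n => matW V (z n)) atTop (𝓝 1) := by
  let _ : Algebra k ℂ := (V.comp (algebraMap k E)).toAlgebra
  let U : E →ₐ[k] ℂ := { V with commutes' := fun t => rfl }
  have h4 := lim_mat0 h (V := U) hz hx hτ
  have e1 : (⟨(v 0 : ℂ), (v 1 : ℂ), (v 2 : ℂ), (v 3 : ℂ)⟩ : Qt (up ℂ a) (up ℂ b')) = 1 := by
    rw [hv]
    ext <;> simp
  rw [e1, mC_zC_one] at h4
  exact h4

/-- **The limits of the moves of the second kind**, from the membership. -/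
theorem zlim_0_of (_H : Hy ρ σ ρL α a b c q) [Algebra k ℂ] (W : E →ₐ[k] ℂ)
    (hW : (W : E →+* ℂ) ∈ Bd ρ σ q)
    {b' c' : kˣ} {j l : Oct a b c} (h : Trip a b' c' gi j l) [NeZero (2 : ℂ)]
    (hmem : ∀ x : Qt a b', nrd x = 1 → ∃ z ∈ Rs ρ σ α a b c q,
      ∀ y : OctL E a b' c', z (tripO E h y) = tripO E h (zFun ρ 1 (qup E x) 1 y))
    {X0 : Qt (up ℂ a) (up ℂ b')} (n0 : nrd X0 = 1) (r0 : cjq X0 = X0) :
    ∃ X ∈ cl (Bd ρ σ q) (Rs ρ σ α a b c q),
      (∀ y : OctL ℂ a b' c', act (X ⟨W, hW⟩) (tripO ℂ h y) = tripO ℂ h ⟨y.fst, X0 * y.snd⟩) ∧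
      ∀ V : Bd ρ σ q, V.1.comp (algebraMap k E) ≠ algebraMap k ℂ → X V = 1 := by
  classical
  have hre : ∀ V ∈ Bd ρ σ q, ∃ τ : k →+* ℝ, ∀ y, (τ y : ℂ) = V (algebraMap k E y) :=
    fun V hV => exists_rl (V := V.comp (algebraMap k E)) fun y => Bd_im hV (σ.commutes y)
  obtain ⟨τ0, h0⟩ := hre _ hW
  have h0' : ∀ y, (τ0 y : ℂ) = algebraMap k ℂ y := fun y => (h0 y).trans (W.commutes y)
  obtain ⟨v, rfl⟩ : ∃ v : Fin 4 → ℝ, X0 = ⟨(v 0 : ℂ), (v 1 : ℂ), (v 2 : ℂ), (v 3 : ℂ)⟩ := by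
    refine ⟨![X0.re.re, X0.imI.re, X0.imJ.re, X0.imK.re], ?_⟩
    have e1 := congrArg QuaternionAlgebra.re r0
    have e2 := congrArg QuaternionAlgebra.imI r0
    have e3 := congrArg QuaternionAlgebra.imJ r0
    have e4 := congrArg QuaternionAlgebra.imK r0
    ext
    · exact (Complex.conj_eq_iff_re.1 e1).symm
    · exact (Complex.conj_eq_iff_re.1 e2).symm
    · exact (Complex.conj_eq_iff_re.1 e3).symm
    · exact (Complex.conj_eq_iff_re.1 e4).symm
  set tgt : (k →+* ℝ) → Fin 4 → ℝ := fun τ => if τ = τ0 then v else ![1, 0, 0, 0] with htgt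
  have t1 : tgt τ0 = v := if_pos rfl
  have t0 : ∀ τ, τ ≠ τ0 → tgt τ = ![1, 0, 0, 0] := fun τ g => if_neg g
  have hn : ∀ τ, tgt τ 0 ^ 2 - τ (a : k) * tgt τ 1 ^ 2 - τ (b' : k) * tgt τ 2 ^ 2 +
      τ (a : k) * τ (b' : k) * tgt τ 3 ^ 2 = 1 := by
    intro τ
    by_cases g : τ = τ0
    · rw [g, t1]
      have h3 : ((up ℂ a : ℂˣ) : ℂ) = ((τ0 (a : k) : ℝ) : ℂ) := (h0' a).symm
      have h4 : ((up ℂ b' : ℂˣ) : ℂ) = ((τ0 (b' : k) : ℝ) : ℂ) := (h0' b').symm
      simp only [nrd] at n0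
      rw [h3, h4] at n0
      exact_mod_cast n0
    rw [t0 τ g]
    simp
  obtain ⟨x, hx, hx'⟩ := exists_seq (A := a) (B := b') tgt hn
  choose z hz hz' using fun n => hmem (x n) (hx n)
  have hx0 := hx' τ0
  rw [t1] at hx0
  have lim1 := lim_mat0 h (V := W) hz' hx0 h0'
  have limV : ∀ V : Bd ρ σ q, ∃ M : Matrix (Fin 8) (Fin 8) ℂ,
      Tendsto (fun n => matW V.1 (z n)) atTop (𝓝 M) ∧
        (V.1.comp (algebraMap k E) ≠ algebraMap k ℂ → M = 1) := by
    rintro ⟨V, hV⟩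
    by_cases g : V.comp (algebraMap k E) = algebraMap k ℂ
    · let U : E →ₐ[k] ℂ := { V with commutes' := fun t => RingHom.congr_fun g t }
      exact ⟨_, lim_mat0 h (V := U) hz' hx0 h0', fun g' => absurd g g'⟩
    · obtain ⟨τ, hτ⟩ := hre _ hV
      refine ⟨1, lim_off0 h hz' (hx' τ) hτ (t0 τ ?_), fun _ => rfl⟩
      rintro rfl
      apply g
      ext t
      exact (hτ t).symm.trans (h0' t)
  choose M hM hM' using limV
  refine ⟨M, ?_, fun y => ?_, hM'⟩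
  · refine mem_closure_of_tendsto (f := fun n => mat (Bd ρ σ q) (z n)) (b := atTop) ?_
      (Eventually.of_forall fun n => ⟨z n, hz n, rfl⟩)
    exact tendsto_pi_nhds.2 fun V => hM V
  · rw [tendsto_nhds_unique (hM ⟨W, hW⟩) lim1, act_mC, zC_apply, star_one, mul_one, one_mul,
      mul_one]

end main

end Vale.Agent.P011.D4Z.H408
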