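import Vale.Agent.P011.D4Z.H408.Lim

/-!
Block D4Z: the limits of the moves `z(1, x; 1)` for an abstract subgroup, without the structure
`Hy`.
-/

open NumberField Topology Filter

set_option linter.unusedSectionVars false

namespace Vale.Agent.P011.D4Z.H408

open Vale.Agent.P011.MPQ Vale.Agent.P011.D4 Vale.Agent.P011.D4.Oct Vale.Agent.P011.D4X
open Vale.Agent.P011.E6 (tripO tripO_apply)
open Vale.Agent.P011.D4X.H637 (qn)
open scoped ComplexConjugate

variable {k L E : Type} [Field k] [NumberField k] [Field L] [NumberField L] [Field E]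
  [NumberField E] [Algebra k L] [Algebra k E] [Algebra L E]
  [IsScalarTower k L E] [NeZero (2 : E)] {ρ σ : E ≃ₐ[k] E} {α : E}
  {a b c : kˣ} {q : Lˣ}

theorem lim_off_gen (hσL : ∀ t : L, σ (algebraMap L E t) = algebraMap L E t)
    (hBd : ∀ W ∈ Bd ρ σ q, W.comp (ρ : E →+* E) ∈ Bd ρ σ q) [NeZero (2 : ℂ)] {b' c' : kˣ} {j l : Oct a b c}
    (h : Trip a b' c' gi j l) {V : E →+* ℂ} (hV : V ∈ Bd ρ σ q)
    {x : ℕ → Qt (up L a) (q * up L b')} {z : ℕ → OctL E a b c ≃ₗ[E] OctL E a b c}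
    (hz : ∀ n y, z n (tripO E h y) = tripO E h (zFun ρ (psiL α q (x n)) 1 1 y))
    {tgt : (L →+* ℝ) → Fin 4 → ℝ}
    (hx : ∀ τ : L →+* ℝ, Tendsto
      (fun n => ![τ (x n).re, τ (x n).imI, τ (x n).imJ, τ (x n).imK]) atTop (𝓝 (tgt τ)))
    (h0 : ∀ τ : L →+* ℝ, (∀ t : k, (τ (algebraMap k L t) : ℂ) = V (algebraMap k E t)) →
      tgt τ = ![1, 0, 0, 0]) :
    Tendsto (fun n => matW V (z n)) atTop (𝓝 1) := by
  let _ : Algebra k ℂ := (V.comp (algebraMap k E)).toAlgebra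
  let U : E →ₐ[k] ℂ := { V with commutes' := fun t => rfl }
  have hU : (U : E →+* ℂ) = V := rfl
  have b1 := hBd _ hV
  have b2 := hBd _ b1
  obtain ⟨τ1, h1⟩ := exists_rl (V := V.comp (algebraMap L E)) fun y => Bd_im hV (hσL y)
  obtain ⟨τ2, h2⟩ := exists_rl (V := (V.comp (ρ : E →+* E)).comp (algebraMap L E))
    fun y => Bd_im b1 (hσL y)
  obtain ⟨τ3, h3⟩ := exists_rl
    (V := ((V.comp (ρ : E →+* E)).comp (ρ : E →+* E)).comp (algebraMap L E))
    fun y => Bd_im b2 (hσL y)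
  have e1 : tgt τ1 = ![1, 0, 0, 0] := h0 _ fun t => by
    rw [h1, IsScalarTower.algebraMap_apply k L E]
    rfl
  have e2 : tgt τ2 = ![1, 0, 0, 0] := h0 _ fun t => by
    rw [h2]
    change V (ρ (algebraMap L E (algebraMap k L t))) = _
    rw [← IsScalarTower.algebraMap_apply k L E, ρ.commutes]
  have e3 : tgt τ3 = ![1, 0, 0, 0] := h0 _ fun t => by
    rw [h3]
    change V (ρ (ρ (algebraMap L E (algebraMap k L t)))) = _
    rw [← IsScalarTower.algebraMap_apply k L E, ρ.commutes, ρ.commutes]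
  have h4 := lim_mat h (V := U) hz hx TQ_evq_one h1 h2 h3
  rw [e1, e2, e3] at h4
  have e4 : (fun i => (((![1, 0, 0, 0] : Fin 4 → ℝ) i : ℝ) : ℂ)) = ![1, 0, 0, 0] := by
    funext i
    fin_cases i <;> simp
  rw [e4, psC_one, psC_one, psC_one, mC_zC_one] at h4
  exact h4

/-- **The limits of the moves**, from the membership. -/
theorem zlim_x_gen {G : Subgroup (OctL E a b c ≃ₗ[E] OctL E a b c)}
    (hα2 : α * α = algebraMap k E a) (hσα : σ α = -α) (hρα : ρ α = α)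
    (hρ3 : ∀ x, ρ (ρ (ρ x)) = x) (hσL : ∀ t : L, σ (algebraMap L E t) = algebraMap L E t)
    (hBd : ∀ W ∈ Bd ρ σ q, W.comp (ρ : E →+* E) ∈ Bd ρ σ q)
    (hne : ∀ W ∈ Bd ρ σ q, ∃ t : L, W (ρ (algebraMap L E t)) ≠ W (algebraMap L E t))
    [Algebra k ℂ] (W W' W'' : E →ₐ[k] ℂ)
    (hW : (W : E →+* ℂ) ∈ Bd ρ σ q)
    (hW' : (W' : E →+* ℂ) ∈ Bd ρ σ q) (hW'' : (W'' : E →+* ℂ) ∈ Bd ρ σ q)
    (h' : W' = cmp W ρ) (h'' : W'' = cmp W' ρ)
    {b' c' : kˣ} {j l : Oct a b c} (h : Trip a b' c' gi j l) [NeZero (2 : ℂ)]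
    (hmem : ∀ x : Qt (up L a) (q * up L b'), nrd x = 1 → ∃ z ∈ G,
      ∀ y : OctL E a b' c', z (tripO E h y) = tripO E h (zFun ρ (psiL α q x) 1 1 y))
    {X1 X2 X3 : Qt (up ℂ a) (up ℂ b')} (n1 : nrd X1 = 1) (n2 : nrd X2 = 1) (n3 : nrd X3 = 1)
    (r1 : RQ a b' (W α) (W (algebraMap L E q)) X1)
    (r2 : RQ a b' (W α) (W' (algebraMap L E q)) X2)
    (r3 : RQ a b' (W α) (W'' (algebraMap L E q)) X3) :
    ∃ X ∈ cl (Bd ρ σ q) (G),
      (∀ y : OctL ℂ a b' c', act (X ⟨W, hW⟩) (tripO ℂ h y) =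
        tripO ℂ h ⟨X1 * y.fst * star X3, y.snd * star X2⟩) ∧
      (∀ y : OctL ℂ a b' c', act (X ⟨W', hW'⟩) (tripO ℂ h y) =
        tripO ℂ h ⟨X2 * y.fst * star X1, y.snd * star X3⟩) ∧
      (∀ y : OctL ℂ a b' c', act (X ⟨W'', hW''⟩) (tripO ℂ h y) =
        tripO ℂ h ⟨X3 * y.fst * star X2, y.snd * star X1⟩) ∧
      ∀ V : Bd ρ σ q, V.1.comp (algebraMap k E) ≠ algebraMap k ℂ → X V = 1 := by
  classical
  have ha0 : α ≠ 0 := by
    intro h0
    have h1 := hα2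
    rw [h0, zero_mul] at h1
    exact a.ne_zero ((map_eq_zero _).1 h1.symm)
  have hα0 : W α ≠ 0 := (map_ne_zero W).2 ha0
  have hα : conj (W α) = -W α := by
    have h1 := hW.1 α
    rw [hσα] at h1
    change W (-α) = conj (W α) at h1
    rw [← h1, map_neg]
  have h2 : W α * W α = algebraMap k ℂ a := by
    rw [← map_mul, hα2]
    exact W.commutes _
  have hq0 : algebraMap L E (q : L) ≠ 0 := (map_ne_zero _).2 q.ne_zero
  have a' : W' α = W α := by
    rw [h']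
    exact congrArg W hρα
  have a'' : W'' α = W α := by
    rw [h'']
    exact (congrArg W' hρα).trans a'
  obtain ⟨v1, rfl⟩ := exists_real hα hα0 ((map_ne_zero W).2 hq0) h2 r1
  obtain ⟨v2, rfl⟩ := exists_real hα hα0 ((map_ne_zero W').2 hq0) h2 r2
  obtain ⟨v3, rfl⟩ := exists_real hα hα0 ((map_ne_zero W'').2 hq0) h2 r3
  have hre : ∀ V ∈ Bd ρ σ q, ∃ τ : L →+* ℝ, ∀ y, (τ y : ℂ) = V (algebraMap L E y) :=
    fun V hV => exists_rl (V := V.comp (algebraMap L E)) fun y => Bd_im hV (hσL y)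
  obtain ⟨w1, hw1⟩ := hre _ hW
  obtain ⟨w2, hw2⟩ := hre _ hW'
  obtain ⟨w3, hw3⟩ := hre _ hW''
  have c3 : cmp W'' ρ = W := by
    rw [h'', h']
    exact AlgHom.ext fun y => congrArg W (hρ3 y)
  have d12 : w1 ≠ w2 := fun h1 => by
    obtain ⟨t, ht⟩ := hne _ hW
    apply ht
    have h3 : (W' : E →+* ℂ) (algebraMap L E t) = (W : E →+* ℂ) (algebraMap L E t) := by
      rw [← hw2, ← hw1, h1]
    rw [h'] at h3
    exact h3
  have d23 : w2 ≠ w3 := fun h1 => by
    obtain ⟨t, ht⟩ := hne _ hW'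
    apply ht
    have h3 : (W'' : E →+* ℂ) (algebraMap L E t) = (W' : E →+* ℂ) (algebraMap L E t) := by
      rw [← hw3, ← hw2, h1]
    rw [h''] at h3
    exact h3
  have d13 : w1 ≠ w3 := fun h1 => by
    obtain ⟨t, ht⟩ := hne _ hW''
    apply ht
    have h3 : (W : E →+* ℂ) (algebraMap L E t) = (W'' : E →+* ℂ) (algebraMap L E t) := by
      rw [← hw1, ← hw3, h1]
    rw [← c3] at h3
    exact h3
  set tgt : (L →+* ℝ) → Fin 4 → ℝ := fun τ => if τ = w1 then v1 else if τ = w2 then v2 else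
    if τ = w3 then v3 else ![1, 0, 0, 0] with htgt
  have t1 : tgt w1 = v1 := if_pos rfl
  have t2 : tgt w2 = v2 := by simp [htgt, d12.symm]
  have t3 : tgt w3 = v3 := by simp [htgt, d13.symm, d23.symm]
  have t0 : ∀ τ, τ ≠ w1 → τ ≠ w2 → τ ≠ w3 → tgt τ = ![1, 0, 0, 0] := by
    intro τ g1 g2 g3
    simp only [htgt]
    rw [if_neg g1, if_neg g2, if_neg g3]
  have n2' := n2
  have n3' := n3
  rw [← a'] at n2'
  rw [← a''] at n3'
  have hn : ∀ τ, tgt τ 0 ^ 2 - τ ((up L a : Lˣ) : L) * tgt τ 1 ^ 2 -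
      τ ((q * up L b' : Lˣ) : L) * tgt τ 2 ^ 2 +
      τ ((up L a : Lˣ) : L) * τ ((q * up L b' : Lˣ) : L) * tgt τ 3 ^ 2 = 1 := by
    intro τ
    by_cases g1 : τ = w1
    · rw [g1, t1]
      exact tgt_norm hw1 hα0 h2 n1
    by_cases g2 : τ = w2
    · rw [g2, t2]
      exact tgt_norm hw2 (by rw [a']; exact hα0) (by rw [a']; exact h2) n2'
    by_cases g3 : τ = w3
    · rw [g3, t3]
      exact tgt_norm hw3 (by rw [a'']; exact hα0) (by rw [a'']; exact h2) n3'
    rw [t0 τ g1 g2 g3]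
    simp
  obtain ⟨x, hx, hx'⟩ := exists_seq (A := up L a) (B := q * up L b') tgt hn
  choose z hz hz' using fun n => hmem (x n) (hx n)
  have lim1 := lim_mat (P0 := 1) h (V := W) hz' hx' TQ_evq_one hw1
    (fun y => by rw [← h']; exact hw2 y) (fun y => by rw [← h', ← h'']; exact hw3 y)
  have lim2 := lim_mat (P0 := 1) h (V := W') hz' hx' TQ_evq_one hw2
    (fun y => by rw [← h'']; exact hw3 y) (fun y => by rw [← h'', c3]; exact hw1 y)
  have lim3 := lim_mat (P0 := 1) h (V := W'') hz' hx' TQ_evq_one hw3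
    (fun y => by rw [c3]; exact hw1 y) (fun y => by rw [c3, ← h']; exact hw2 y)
  rw [← h', ← h'', t1, t2, t3, a', a''] at lim1
  rw [← h'', c3, t1, t2, t3, a', a''] at lim2
  rw [c3, ← h', t1, t2, t3, a', a''] at lim3
  have limV : ∀ V : Bd ρ σ q, ∃ M : Matrix (Fin 8) (Fin 8) ℂ,
      Tendsto (fun n => matW V.1 (z n)) atTop (𝓝 M) ∧
        (V.1.comp (algebraMap k E) ≠ algebraMap k ℂ → M = 1) := by
    rintro ⟨V, hV⟩
    by_cases g : V.comp (algebraMap k E) = algebraMap k ℂ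
    · let U : E →ₐ[k] ℂ := { V with commutes' := fun t => RingHom.congr_fun g t }
      have b1 := hBd _ hV
      have b2 := hBd _ b1
      obtain ⟨τ1, h1⟩ := hre _ hV
      obtain ⟨τ2, h2⟩ := hre _ b1
      obtain ⟨τ3, h3⟩ := hre _ b2
      exact ⟨_, lim_mat (P0 := 1) h (V := U) hz' hx' TQ_evq_one h1 h2 h3, fun g' => absurd g g'⟩
    · refine ⟨1, lim_off_gen hσL hBd h hV hz' hx' fun τ hτ => t0 τ ?_ ?_ ?_, fun _ => rfl⟩
      · rintro rfl
        apply g
        ext t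
        change V (algebraMap k E t) = _
        rw [← hτ, hw1, ← IsScalarTower.algebraMap_apply k L E]
        exact W.commutes t
      · rintro rfl
        apply g
        ext t
        change V (algebraMap k E t) = _
        rw [← hτ, hw2, ← IsScalarTower.algebraMap_apply k L E]
        exact W'.commutes t
      · rintro rfl
        apply g
        ext t
        change V (algebraMap k E t) = _
        rw [← hτ, hw3, ← IsScalarTower.algebraMap_apply k L E]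
        exact W''.commutes t
  choose M hM hM' using limV
  refine ⟨M, ?_, fun y => ?_, fun y => ?_, fun y => ?_, hM'⟩
  · refine mem_closure_of_tendsto (f := fun n => mat (Bd ρ σ q) (z n)) (b := atTop) ?_
      (Eventually.of_forall fun n => ⟨z n, hz n, rfl⟩)
    exact tendsto_pi_nhds.2 fun V => hM V
  · rw [tendsto_nhds_unique (hM ⟨W, hW⟩) lim1, act_mC, zC_apply, one_mul]
  · rw [tendsto_nhds_unique (hM ⟨W', hW'⟩) lim2, act_mC, zC_apply, one_mul]
  · rw [tendsto_nhds_unique (hM ⟨W'', hW''⟩) lim3, act_mC, zC_apply, one_mul]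


end Vale.Agent.P011.D4Z.H408
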