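import Vale.Agent.P011.D4Z.H408.LimG
import Vale.Agent.P011.D4Y.Defs

/-!
Block D4Z, groups of noncyclic cubic extensions: the limits of the moves, from the membership.
-/

open NumberField Topology

namespace Vale.Agent.P011.D4Z.H408

open Vale.Agent.P011.MPQ Vale.Agent.P011.D4 Vale.Agent.P011.D4.Oct Vale.Agent.P011.D4X
open Vale.Agent.P011.D4Y
open Vale.Agent.P011.E6
open scoped ComplexConjugate

variable {k L E : Type} [Field k] [NumberField k] [Field L] [NumberField L] [Field E]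
  [NumberField E] [Algebra k L] [Algebra k E] [Algebra L E]
  [IsScalarTower k L E] [NeZero (2 : E)] {ρ σ ι : E ≃ₐ[k] E} {α : E}
  {a b c : kˣ} {q : Lˣ}

theorem Bd_rhoI (H : HyI ρ σ ι α a b c q) :
    ∀ W ∈ Bd ρ σ q, W.comp (ρ : E →+* E) ∈ Bd ρ σ q := by
  rintro W ⟨h1, h2⟩
  refine ⟨fun x => ?_, fun h3 => h2 ?_⟩
  · change W (ρ (σ x)) = conj (W (ρ x))
    rw [← H.comm, h1]
  · obtain ⟨g1, g2, g3⟩ := h3
    change 0 < (W (ρ _)).re at g1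
    change 0 < (W (ρ (ρ _))).re at g2
    change 0 < (W (ρ (ρ (ρ _)))).re at g3
    rw [H.ρ3] at g3
    exact ⟨g3, g1, g2⟩

theorem ne_rhoI (H : HyI ρ σ ι α a b c q) :
    ∀ W ∈ Bd ρ σ q, ∃ t : L, W (ρ (algebraMap L E t)) ≠ W (algebraMap L E t) := by
  intro W _
  obtain ⟨t, ht⟩ := H.ρL
  exact ⟨t, fun h => ht (W.injective h)⟩

/-- **The limits of the moves**, from the membership. -/
theorem zlim_xI_of (H : HyI ρ σ ι α a b c q) {G : Subgroup (OctL E a b c ≃ₗ[E] OctL E a b c)}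
    [Algebra k ℂ] (W W' W'' : E →ₐ[k] ℂ)
    (hW : (W : E →+* ℂ) ∈ Bd ρ σ q)
    (hW' : (W' : E →+* ℂ) ∈ Bd ρ σ q) (hW'' : (W'' : E →+* ℂ) ∈ Bd ρ σ q)
    (h' : W' = cmp W ρ) (h'' : W'' = cmp W' ρ)
    {b' c' : kˣ} {j l : Oct a b c} (h : Trip a b' c' gi j l) [NeZero (2 : ℂ)]
    (hmem : ∀ x : Qt (up L a) (q * up L b'), nrd x = 1 → ∃ z ∈ G, ∀ y : OctL E a b' c',
      z (tripO E h y) = tripO E h ⟨psiL α q x * y.fst * star (qmap ρ (qmap ρ (psiL α q x))),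
        y.snd * star (qmap ρ (psiL α q x))⟩)
    {X1 X2 X3 : Qt (up ℂ a) (up ℂ b')} (n1 : nrd X1 = 1) (n2 : nrd X2 = 1) (n3 : nrd X3 = 1)
    (r1 : RQ a b' (W α) (W (algebraMap L E q)) X1)
    (r2 : RQ a b' (W α) (W' (algebraMap L E q)) X2)
    (r3 : RQ a b' (W α) (W'' (algebraMap L E q)) X3) :
    ∃ X ∈ cl (Bd ρ σ q) G,
      (∀ y : OctL ℂ a b' c', act (X ⟨W, hW⟩) (tripO ℂ h y) =
        tripO ℂ h ⟨X1 * y.fst * star X3, y.snd * star X2⟩) ∧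
      (∀ y : OctL ℂ a b' c', act (X ⟨W', hW'⟩) (tripO ℂ h y) =
        tripO ℂ h ⟨X2 * y.fst * star X1, y.snd * star X3⟩) ∧
      (∀ y : OctL ℂ a b' c', act (X ⟨W'', hW''⟩) (tripO ℂ h y) =
        tripO ℂ h ⟨X3 * y.fst * star X2, y.snd * star X1⟩) ∧
      ∀ V : Bd ρ σ q, V.1.comp (algebraMap k E) ≠ algebraMap k ℂ → X V = 1 :=
  zlim_x_gen H.α2 H.σα H.ρα H.ρ3 H.σL (Bd_rhoI H) (ne_rhoI H) W W' W'' hW hW' hW'' h' h'' h
    (fun x hx => by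
      obtain ⟨z, hz, hy⟩ := hmem x hx
      refine ⟨z, hz, fun y => ?_⟩
      rw [hy]
      unfold zFun
      rw [one_mul, one_smul]) n1 n2 n3 r1 r2 r3

end Vale.Agent.P011.D4Z.H408
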