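import Vale.Agent.P011.D4X.H637.Dens
import Vale.Agent.P011.D4X.H637.Conj

/-!
Block D4Z: weak approximation for the elements of norm one of a quaternion algebra at real places.
-/

open NumberField Topology

namespace Vale.Agent.P011.D4Z.H408

open Vale.Agent.P011.MPQ Vale.Agent.P011.D4 Vale.Agent.P011.D4.Oct Vale.Agent.P011.D4X.H637

/-- **Weak approximation for elements of norm one**, away from `-1`. -/
theorem exists_sl1 {F : Type} [Field F] [NumberField F] {A B : Fˣ} (S : Finset (F →+* ℝ))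
    (X : (F →+* ℝ) → Fin 4 → ℝ)
    (hX : ∀ τ ∈ S, X τ 0 ^ 2 - τ A * X τ 1 ^ 2 - τ B * X τ 2 ^ 2 + τ A * τ B * X τ 3 ^ 2 = 1)
    (hne : ∀ τ ∈ S, X τ 0 ≠ -1) {ε : ℝ} (hε : 0 < ε) :
    ∃ x : Qt A B, nrd x = 1 ∧ ∀ τ ∈ S, |τ x.re - X τ 0| < ε ∧ |τ x.imI - X τ 1| < ε ∧
      |τ x.imJ - X τ 2| < ε ∧ |τ x.imK - X τ 3| < ε := by
  obtain ⟨z, hz, hz'⟩ := exists_quadric (k := F) ![1, -(A : F), -(B : F), (A : F) * B]
    ![-1, 0, 0, 0] S X (fun τ hτ => by
      have h1 := hX τ hτ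
      simp only [Fin.sum_univ_four, Matrix.cons_val_zero, Matrix.cons_val_one, Matrix.cons_val,
        map_one, map_neg, map_mul, map_zero]
      linear_combination h1) (fun τ hτ => by
      have h1 := hX τ hτ
      simp only [Fin.sum_univ_four, Matrix.cons_val_zero, Matrix.cons_val_one, Matrix.cons_val,
        map_one, map_neg, map_mul, map_zero]
      intro h2
      apply hne τ hτ
      linear_combination (1 / 2 : ℝ) * h2 - (1 / 2 : ℝ) * h1) hε
  refine ⟨⟨z 0, z 1, z 2, z 3⟩, ?_, fun τ hτ => ⟨hz' τ hτ 0, hz' τ hτ 1, hz' τ hτ 2, hz' τ hτ 3⟩⟩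
  simp only [Fin.sum_univ_four, Matrix.cons_val_zero, Matrix.cons_val_one, Matrix.cons_val] at hz
  simp only [nrd]
  linear_combination hz

end Vale.Agent.P011.D4Z.H408
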